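import Vale.Agent.P073Z.Sk1

/-!
# Collars: charts adapted to a two-sided surface
-/

open Set Metric Topology Filter

namespace P073.Col

/-- ambient PL homeomorphisms -/
abbrev AH := ConHomeo (univ : Set E3) (univ : Set E3)

theorem cs_univ {E : Type} [NormedAddCommGroup E] [NormedSpace ℝ E] :
    ConicalSet (univ : Set E) := IsOpen.conicalSet isOpen_univ

/-- a diagonal linear map -/
noncomputable def diag (a : Fin 3 → ℝ) (ha : ∀ i, a i ≠ 0) : AH where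
  toFun y := fun i => a i * y i
  invFun y := fun i => (a i)⁻¹ * y i
  mapsTo := mapsTo_univ _ _
  mapsTo_inv := mapsTo_univ _ _
  left_inv := fun y _ => by
    funext i
    simp only
    rw [← mul_assoc, inv_mul_cancel₀ (ha i), one_mul]
  right_inv := fun y _ => by
    funext i
    simp only
    rw [← mul_assoc, mul_inv_cancel₀ (ha i), one_mul]
  cont := Continuous.continuousOn (by fun_prop)
  cont_inv := Continuous.continuousOn (by fun_prop)
  conical := (conicalOn_linear (LinearMap.pi fun i : Fin 3 =>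
      a i • (LinearMap.proj i : E3 →ₗ[ℝ] ℝ)) cs_univ).congr fun y _ => by
    funext i
    simp

/-- a chart in which the surface is flat and `P` is the upper side -/
def Good (U S P : Set E3) (Φ : AH) : Prop :=
  ∀ y, ‖Φ.toFun y‖ < 2 → y ∈ U ∧ (y ∈ S ↔ Φ.toFun y 2 = 0) ∧ (y ∈ P ↔ 0 < Φ.toFun y 2)

theorem half_side {S U P M : Set E3} (hP : IsOpen P) (hM : IsOpen M) (hd : Disjoint P M)
    (hPM : P ∪ M = U \ S) (Φ : AH) {r e : ℝ} (he : e ≠ 0)
    (h : ∀ y, ‖Φ.toFun y‖ < r → y ∈ U ∧ (y ∈ S ↔ Φ.toFun y 2 = 0)) :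
    (∀ y, ‖Φ.toFun y‖ < r → 0 < e * Φ.toFun y 2 → y ∈ P) ∨
      (∀ y, ‖Φ.toFun y‖ < r → 0 < e * Φ.toFun y 2 → y ∈ M) := by
  have hc : Convex ℝ (ball (0 : E3) r ∩ {v | 0 < e * v 2}) := by
    refine (convex_ball _ _).inter ?_
    intro v hv w hw a b ha hb hab
    simp only [mem_ofPred_eq, Pi.add_apply, Pi.smul_apply, smul_eq_mul] at hv hw ⊢
    rcases eq_or_lt_of_le ha with h0 | h0
    · have : b = 1 := by linarith
      rw [← h0, this]; simpa using hw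
    · have h1 := mul_pos h0 hv
      have h2 := mul_nonneg hb hw.le
      nlinarith
  have hp : IsPreconnected (Φ.invFun '' (ball (0 : E3) r ∩ {v | 0 < e * v 2})) :=
    hc.isPreconnected.image _ Φ.continuous_inv.continuousOn
  have hs : Φ.invFun '' (ball (0 : E3) r ∩ {v | 0 < e * v 2}) ⊆ P ∪ M := by
    rintro _ ⟨v, ⟨hv1, hv2⟩, rfl⟩
    rw [hPM]
    have h1 := h (Φ.invFun v) (by rw [Φ.apply_inv]; exact mem_ball_zero_iff.1 hv1)
    refine ⟨h1.1, fun hS => ?_⟩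
    have h2 := h1.2.1 hS
    rw [Φ.apply_inv] at h2
    simp only [mem_ofPred_eq, h2, mul_zero, lt_self_iff_false] at hv2
  have key : ∀ y, ‖Φ.toFun y‖ < r → 0 < e * Φ.toFun y 2 →
      y ∈ Φ.invFun '' (ball (0 : E3) r ∩ {v | 0 < e * v 2}) := fun y h1 h2 =>
    ⟨Φ.toFun y, ⟨mem_ball_zero_iff.2 h1, h2⟩, Φ.inv_apply y⟩
  have _ := he
  rcases hp.subset_or_subset hP hM hd hs with h1 | h1
  · exact Or.inl fun y a b => h1 (key y a b)
  · exact Or.inr fun y a b => h1 (key y a b)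

theorem exists_sign {S U P M : Set E3} (hP : IsOpen P) (hM : IsOpen M) (hd : Disjoint P M)
    (hPM : P ∪ M = U \ S) (Φ : AH) {r : ℝ} (hr : 0 < r) {x : E3} (hx : Φ.toFun x = 0)
    (hxP : x ∈ closure P) (hxM : x ∈ closure M)
    (h : ∀ y, ‖Φ.toFun y‖ < r → y ∈ U ∧ (y ∈ S ↔ Φ.toFun y 2 = 0)) :
    ∃ e : ℝ, |e| = 1 ∧ ∀ y, ‖Φ.toFun y‖ < r → (y ∈ P ↔ 0 < e * Φ.toFun y 2) := by
  have hn : {y | ‖Φ.toFun y‖ < r} ∈ 𝓝 x := by
    refine (isOpen_lt Φ.continuous.norm continuous_const).mem_nhds ?_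
    simp only [mem_ofPred_eq, hx, norm_zero]; exact hr
  have hne : ∀ y, ‖Φ.toFun y‖ < r → y ∈ P ∪ M → Φ.toFun y 2 ≠ 0 := by
    intro y hy hy2 h0
    rw [hPM] at hy2
    exact hy2.2 ((h y hy).2.2 h0)
  obtain ⟨p, hp1, hp2⟩ := mem_closure_iff_nhds.1 hxP _ hn
  obtain ⟨m, hm1, hm2⟩ := mem_closure_iff_nhds.1 hxM _ hn
  have hp0 := hne p hp1 (Or.inl hp2)
  have hm0 := hne m hm1 (Or.inr hm2)
  have fin : ∀ e : ℝ, |e| = 1 → (∀ y, ‖Φ.toFun y‖ < r → 0 < e * Φ.toFun y 2 → y ∈ P) →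
      (∀ y, ‖Φ.toFun y‖ < r → 0 < -e * Φ.toFun y 2 → y ∈ M) →
      ∃ e : ℝ, |e| = 1 ∧ ∀ y, ‖Φ.toFun y‖ < r → (y ∈ P ↔ 0 < e * Φ.toFun y 2) := by
    intro e he a b
    refine ⟨e, he, fun y hy => ⟨fun hyP => ?_, a y hy⟩⟩
    by_contra hlt
    have h0 := hne y hy (Or.inl hyP)
    have he0 : e ≠ 0 := by
      rintro rfl
      simp at he
    have h1 : e * Φ.toFun y 2 ≠ 0 := mul_ne_zero he0 h0
    have h2 : 0 < -e * Φ.toFun y 2 := by
      rw [neg_mul]
      exact neg_pos.2 (lt_of_le_of_ne (not_lt.1 hlt) h1)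
    exact disjoint_left.1 hd hyP (b y hy h2)
  rcases half_side hP hM hd hPM Φ (e := 1) one_ne_zero h with a | a <;>
    rcases half_side hP hM hd hPM Φ (e := -1) (by norm_num) h with b | b
  · exfalso
    rcases lt_or_gt_of_ne hm0 with c | c
    · exact disjoint_left.1 hd (b m hm1 (by linarith)) hm2
    · exact disjoint_left.1 hd (a m hm1 (by linarith)) hm2
  · exact fin 1 abs_one a b
  · exact fin (-1) (by simp) b (by simpa using a)
  · exfalso
    rcases lt_or_gt_of_ne hp0 with c | c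
    · exact disjoint_left.1 hd hp2 (b p hp1 (by linarith))
    · exact disjoint_left.1 hd hp2 (a p hp1 (by linarith))

theorem exists_good (hL : LFL) {S U P M : Set E3} (hU : IsOpen U) (hSU : S ⊆ U)
    (hS : PLMan 2 S) (hP : IsOpen P) (hM : IsOpen M) (hd : Disjoint P M) (hPM : P ∪ M = U \ S)
    (hSP : S ⊆ closure P) (hSM : S ⊆ closure M) {x : E3} (hx : x ∈ S) {V : Set E3}
    (hV : V ∈ 𝓝 x) : ∃ Φ : AH, Good U S P Φ ∧ Φ.toFun x = 0 ∧
      ∀ y, ‖Φ.toFun y‖ < 2 → y ∈ V := by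
  obtain ⟨C, B, hC, hxC, hCS, hCn⟩ := hS x hx
  obtain ⟨Φ, hΦx, hΦ⟩ := hL hC hxC hCS hCn
  have hW : ∀ᶠ y in 𝓝 x, y ∈ V ∧ y ∈ U ∧ (y ∈ S ↔ Φ.toFun y 2 = 0) :=
    Eventually.and hV (Eventually.and (hU.mem_nhds (hSU hx)) hΦ)
  have h0 : Φ.invFun 0 = x := by rw [← hΦx, Φ.inv_apply]
  have ht : Tendsto Φ.invFun (𝓝 0) (𝓝 x) := h0 ▸ Φ.continuous_inv.continuousAt
  obtain ⟨r, hr, hb⟩ := Metric.eventually_nhds_iff_ball.1 (ht.eventually hW)
  have h : ∀ y, ‖Φ.toFun y‖ < r → y ∈ V ∧ y ∈ U ∧ (y ∈ S ↔ Φ.toFun y 2 = 0) := by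
    intro y hy
    have := hb (Φ.toFun y) (mem_ball_zero_iff.2 hy)
    rwa [Φ.inv_apply] at this
  obtain ⟨e, he, hsg⟩ := exists_sign hP hM hd hPM Φ hr hΦx (hSP hx) (hSM hx)
    fun y hy => (h y hy).2
  have he0 : e ≠ 0 := by
    rintro rfl
    simp at he
  have hr2 : 0 < 2 / r := by positivity
  have ha : ∀ i, (fun _ : Fin 3 => e * (2 / r)) i ≠ 0 := fun _ => mul_ne_zero he0 hr2.ne'
  have hn : ∀ y, ‖(Φ.trans (diag _ ha)).toFun y‖ < 2 → ‖Φ.toFun y‖ < r := by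
    intro y hy
    rw [pi_norm_lt_iff hr]
    intro i
    have h1 : ‖e * (2 / r) * Φ.toFun y i‖ < 2 := (norm_le_pi_norm _ i).trans_lt hy
    rw [Real.norm_eq_abs, abs_mul, abs_mul, he, one_mul, abs_of_pos hr2, div_mul_eq_mul_div,
      div_lt_iff₀ hr] at h1
    rw [Real.norm_eq_abs]
    linarith
  refine ⟨Φ.trans (diag _ ha), fun y hy => ?_, ?_, fun y hy => (h y (hn y hy)).1⟩
  · obtain ⟨-, h2, h3⟩ := h y (hn y hy)
    refine ⟨h2, h3.trans ?_, (hsg y (hn y hy)).trans ?_⟩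
    · change _ ↔ e * (2 / r) * Φ.toFun y 2 = 0
      rw [mul_eq_zero, or_iff_right (ha 0)]
    · change _ ↔ 0 < e * (2 / r) * Φ.toFun y 2
      rw [mul_right_comm, mul_pos_iff_of_pos_right hr2]
  · funext i
    change e * (2 / r) * Φ.toFun x i = 0
    rw [hΦx]; simp

/-! ### PL functions on the whole space -/

section pl

variable {E F : Type} [NormedAddCommGroup E] [NormedSpace ℝ E] [NormedAddCommGroup F]
  [NormedSpace ℝ F]

/-- PL on the whole space -/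
def PL (f : E → F) : Prop := Continuous f ∧ ConicalOn f univ

theorem PL.const (c : F) : PL fun _ : E => c := ⟨continuous_const, conicalOn_const c cs_univ⟩

theorem PL.clm (L : E →L[ℝ] F) : PL fun y => L y := ⟨L.continuous, conicalOn_clm L⟩

theorem PL.add {f g : E → F} (hf : PL f) (hg : PL g) : PL fun y => f y + g y :=
  ⟨hf.1.add hg.1, hf.2.add hg.2⟩

theorem PL.sub {f g : E → F} (hf : PL f) (hg : PL g) : PL fun y => f y - g y :=
  ⟨hf.1.sub hg.1, hf.2.sub hg.2⟩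

theorem PL.neg {f : E → F} (hf : PL f) : PL fun y => -f y := ⟨hf.1.neg, hf.2.neg⟩

theorem PL.mul {f : E → ℝ} (c : ℝ) (hf : PL f) : PL fun y => c * f y :=
  ⟨continuous_const.mul hf.1, hf.2.const_smul c⟩

theorem PL.max {f g : E → ℝ} (hf : PL f) (hg : PL g) : PL fun y => max (f y) (g y) :=
  ⟨hf.1.max hg.1, hf.2.rmax hg.2 hf.1.continuousOn hg.1.continuousOn⟩

theorem PL.min {f g : E → ℝ} (hf : PL f) (hg : PL g) : PL fun y => min (f y) (g y) :=
  ⟨hf.1.min hg.1, hf.2.rmin hg.2 hf.1.continuousOn hg.1.continuousOn⟩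

theorem PL.abs {f : E → ℝ} (hf : PL f) : PL fun y => |f y| := hf.max hf.neg

theorem PL.comp {G : Type} [NormedAddCommGroup G] [NormedSpace ℝ G] {g : F → G} {f : E → F}
    (hg : PL g) (hf : PL f) : PL fun y => g (f y) :=
  ⟨hg.1.comp hf.1, hg.2.comp hf.2 (mapsTo_univ _ _) hf.1.continuousOn⟩

theorem PL.prod {G : Type} [NormedAddCommGroup G] [NormedSpace ℝ G] {f : E → F} {g : E → G}
    (hf : PL f) (hg : PL g) : PL fun y => (f y, g y) :=
  ⟨hf.1.prodMk hg.1, hf.2.prodMk hg.2⟩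

theorem PL.fst : PL fun q : E × F => q.1 := PL.clm (ContinuousLinearMap.fst ℝ E F)

theorem PL.snd : PL fun q : E × F => q.2 := PL.clm (ContinuousLinearMap.snd ℝ E F)

theorem PL.apply {f : E → E3} (hf : PL f) (i : Fin 3) : PL fun y => f y i :=
  (PL.clm (ContinuousLinearMap.proj (R := ℝ) (φ := fun _ : Fin 3 => ℝ) i)).comp hf

theorem PL.pi {f : E → E3} (hf : ∀ i, PL fun y => f y i) : PL f :=
  ⟨continuous_pi fun i => (hf i).1, fun x hx =>
    conicalWithinAt_pi (cs_univ x hx) fun i => (hf i).2 x hx⟩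

theorem PL.sum {f : ℕ → E → ℝ} (hf : ∀ i, PL (f i)) (n : ℕ) :
    PL fun y => ∑ i ∈ Finset.range n, f i y := by
  induction n with
  | zero => simpa using PL.const (0 : ℝ)
  | succ n ih => simpa only [Finset.sum_range_succ] using ih.add (hf n)

theorem pl_to (Φ : AH) : PL Φ.toFun := ⟨Φ.continuous, Φ.conical⟩

theorem pl_inv (Φ : AH) : PL Φ.invFun := ⟨Φ.continuous_inv, Φ.conical_inv⟩

theorem PL.within {f : E → F} (hf : PL f) {X : Set E} {x : E} (hX : ConicalSetAt X x) :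
    ConicalWithinAt f X x := (hf.2 x (mem_univ x)).mono_set hX (subset_univ _)

theorem cs_prod {X : Set E} {Y : Set F} {x : E} {y : F} (hX : ConicalSetAt X x)
    (hY : ConicalSetAt Y y) : ConicalSetAt (X ×ˢ Y) (x, y) := by
  obtain ⟨r, hr, hX⟩ := hX
  obtain ⟨s, hs, hY⟩ := hY
  exact ⟨min r s, lt_min hr hs, fun v hv hxv t ht =>
    ⟨hX v.1 ((norm_fst_le v).trans (hv.trans (min_le_left _ _))) hxv.1 t ht,
      hY v.2 ((norm_snd_le v).trans (hv.trans (min_le_right _ _))) hxv.2 t ht⟩⟩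

theorem cs_congr {X Y : Set E} {x : E} (hX : ConicalSetAt X x)
    (h : ∀ᶠ y in 𝓝 x, (y ∈ Y ↔ y ∈ X)) : ConicalSetAt Y x :=
  ((conicalWithinAt_of_affine (AffineMap.id ℝ E) hX).congr_nhds h
    (Eventually.of_forall fun _ _ => rfl) rfl).conicalSetAt

theorem cs_man {n : ℕ} {S : Set E} (hS : PLMan n S) : ConicalSet S := by
  intro x hx
  obtain ⟨C, B, hC, hxC, hCS, hCn⟩ := hS x hx
  refine cs_congr (hC.conicalSet x hxC.1) ?_
  filter_upwards [eventually_nhdsWithin_iff.1 hCn] with y hy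
  exact ⟨hy, fun h => hCS h⟩

end pl

end P073.Col
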