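import Vale.Agent.P073Z.COL.Step

/-!
# Collars: the one-sided collar
-/

open Set Metric Topology Filter

namespace P073.Col

variable {U S P : Set E3}

/-- the composition of the first steps -/
noncomputable def cmp (hX : ConicalSet (XT S P)) (T : ℕ → Step S P) :
    ℕ → ConHomeo (XT S P) (XT S P)
  | 0 => ConHomeo.refl hX
  | n + 1 => (T n).k.trans (cmp hX T n)

/-- the total amount of the first steps -/
def tot (T : ℕ → Step S P) (n : ℕ) (y : E3) : ℝ := ∑ i ∈ Finset.range n, (T i).d y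

theorem tot_nonneg (T : ℕ → Step S P) (n : ℕ) (y : E3) : 0 ≤ tot T n y :=
  Finset.sum_nonneg fun i _ => (T i).nonneg y

theorem pl_tot (T : ℕ → Step S P) (n : ℕ) : PL (tot T n) := PL.sum (fun i => (T i).pl) n

theorem cmp_shift (hX : ConicalSet (XT S P)) (T : ℕ → Step S P) (n : ℕ) {y : E3} (hy : y ∈ S)
    {s : ℝ} (hs : s ≤ 0) : (cmp hX T n).toFun (y, s - tot T n y) = (y, s) := by
  induction n with
  | zero =>
    simp only [tot, Finset.range_zero, Finset.sum_empty, sub_zero]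
    rfl
  | succ n ih =>
    have h1 : s - tot T (n + 1) y + (T n).d y = s - tot T n y := by
      simp only [tot, Finset.sum_range_succ]; ring
    change (cmp hX T n).toFun ((T n).k.toFun _) = _
    rw [(T n).shift y hy _ (by rw [h1]; linarith [tot_nonneg T n y]), h1, ih]

theorem cmp_stab (hX : ConicalSet (XT S P)) (T : ℕ → Step S P) {N : ℕ} {y : E3}
    (h : ∀ n, N ≤ n → y ∉ (T n).A) {n : ℕ} (hn : N ≤ n) :
    tot T n y = tot T N y ∧ ∀ s, (cmp hX T n).toFun (y, s) = (cmp hX T N).toFun (y, s) := by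
  induction n, hn using Nat.le_induction with
  | base => exact ⟨rfl, fun _ => rfl⟩
  | succ n hn ih =>
    refine ⟨?_, fun s => ?_⟩
    · rw [← ih.1]
      simp only [tot, Finset.sum_range_succ, (T n).dz y (h n hn), add_zero]
    · change (cmp hX T n).toFun ((T n).k.toFun _) = _
      rw [(T n).fix (y, s) (h n hn), ih.2]

/-- the domain of the one-sided collar -/
def DH (S : Set E3) (u : E3 → ℝ) : Set (E3 × ℝ) := {q | q.1 ∈ S ∧ 0 ≤ q.2 ∧ q.2 < u q.1}

/-- a one-sided collar -/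
structure Half (S P : Set E3) (u : E3 → ℝ) (c : E3 × ℝ → E3) : Prop where
  gauge : Gauge u S
  cont : ∀ q ∈ DH S u, ContinuousWithinAt c (S ×ˢ Ici 0) q
  con : ∀ q ∈ DH S u, ConicalWithinAt c (S ×ˢ Ici 0) q
  inj : InjOn c (DH S u)
  zero : ∀ x ∈ S, c (x, 0) = x
  side : ∀ q ∈ DH S u, 0 < q.2 → c q ∈ P
  opn : ∀ q ∈ DH S u, 𝓝[P ∪ S] (c q) ≤ map c (𝓝[DH S u] q)

theorem mem_XT {y : E3} (hy : y ∈ S) {t : ℝ} (ht : t ≤ 0) : (y, t) ∈ XT S P := Or.inr ⟨hy, ht⟩

theorem cmp_side (hX : ConicalSet (XT S P)) (T : ℕ → Step S P) (n : ℕ) {y : E3} (hy : y ∈ S)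
    {t : ℝ} (h0 : 0 < t) (h1 : t ≤ tot T n y) :
    ((cmp hX T n).toFun (y, t - tot T n y)).1 ∈ P ∧
      ((cmp hX T n).toFun (y, t - tot T n y)).2 = 0 := by
  have hm : (y, t - tot T n y) ∈ XT S P := Or.inr ⟨hy, sub_nonpos.2 h1⟩
  rcases (cmp hX T n).mapsTo hm with h | ⟨a, b⟩
  · exact h
  · exfalso
    have h2 := cmp_shift hX T n a b
    have h3 := (cmp hX T n).injOn (mem_XT a (by
      linarith [tot_nonneg T n ((cmp hX T n).toFun (y, t - tot T n y)).1])) hm h2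
    obtain ⟨e1, e2⟩ := Prod.ext_iff.1 h3
    simp only at e1 e2
    rw [e1] at e2
    linarith

theorem cmp_snd (hX : ConicalSet (XT S P)) (T : ℕ → Step S P) (n : ℕ) {y : E3} (hy : y ∈ S)
    {t : ℝ} (h0 : 0 ≤ t) (h1 : t ≤ tot T n y) :
    ((cmp hX T n).toFun (y, t - tot T n y)).2 = 0 := by
  rcases eq_or_lt_of_le h0 with h | h
  · rw [← h, cmp_shift hX T n hy le_rfl]
  · exact (cmp_side hX T n hy h h1).2

theorem half_of_steps (hU : IsOpen U) (hSU : S ⊆ U) (hX : ConicalSet (XT S P))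
    (hS : ConicalSet S) (T : ℕ → Step S P) (hf : LFIn (fun n => (T n).A) U)
    (hc : ∀ y ∈ S, ∃ n, y ∈ (T n).A) : ∃ u c, Half S P u c := by
  have h1 : ∀ x ∈ U, ∃ N, ∀ᶠ y in 𝓝 x, ∀ n, N ≤ n → y ∉ (T n).A := by
    intro x hx
    obtain ⟨V, hV, hfin⟩ := hf x hx
    obtain ⟨N, hN⟩ := hfin.bddAbove
    refine ⟨N + 1, ?_⟩
    filter_upwards [hV] with y hy n hn hA
    have : n ≤ N := hN ⟨y, hA, hy⟩
    omega
  choose! N hN using h1
  let u : E3 → ℝ := fun y => tot T (N y) y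
  let c : E3 × ℝ → E3 := fun q => ((cmp hX T (N q.1)).toFun (q.1, q.2 - u q.1)).1
  have key : ∀ y ∈ U, ∀ n, (∀ m, n ≤ m → y ∉ (T m).A) →
      u y = tot T n y ∧ ∀ t, c (y, t) = ((cmp hX T n).toFun (y, t - tot T n y)).1 := by
    intro y hy n hn
    have a := cmp_stab hX T (hN y hy).self_of_nhds (le_max_left (N y) n)
    have b := cmp_stab hX T hn (le_max_right (N y) n)
    have e : u y = tot T n y := a.1.symm.trans b.1
    refine ⟨e, fun t => ?_⟩
    change ((cmp hX T (N y)).toFun (y, t - u y)).1 = _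
    rw [← a.2, b.2, e]
  have loc : ∀ x ∈ S, ∀ᶠ y in 𝓝 x, u y = tot T (N x) y ∧
      ∀ t, c (y, t) = ((cmp hX T (N x)).toFun (y, t - tot T (N x) y)).1 := by
    intro x hx
    filter_upwards [hN x (hSU hx), hU.mem_nhds (hSU hx)] with y h1 h2
    exact key y h2 _ h1
  have hτ : ∀ n, PL fun q : E3 × ℝ => (q.1, q.2 - tot T n q.1) := fun n =>
    PL.fst.prod (PL.snd.sub ((pl_tot T n).comp PL.fst))
  have hτ' : ∀ n, PL fun q : E3 × ℝ => (q.1, q.2 + tot T n q.1) := fun n =>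
    PL.fst.prod (PL.snd.add ((pl_tot T n).comp PL.fst))
  have loc2 : ∀ q ∈ DH S u, ∀ᶠ y in 𝓝 q, y.2 < tot T (N q.1) y.1 ∧ u y.1 = tot T (N q.1) y.1 ∧
      c y = ((cmp hX T (N q.1)).toFun (y.1, y.2 - tot T (N q.1) y.1)).1 := by
    intro q hq
    have a : ∀ᶠ y in 𝓝 q, y.2 < tot T (N q.1) y.1 :=
      continuous_snd.continuousAt.eventually_lt
        ((pl_tot T _).1.comp continuous_fst).continuousAt hq.2.2
    filter_upwards [a, continuous_fst.continuousAt.eventually (loc q.1 hq.1)] with y h1 h2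
    exact ⟨h1, h2.1, h2.2 y.2⟩
  have hD : ∀ q ∈ DH S u, ∀ᶠ y in 𝓝 q,
      (y ∈ S ×ˢ Ici (0 : ℝ) ↔ y ∈ S ×ˢ Ici (0 : ℝ) ∩ {y | y.2 ≤ tot T (N q.1) y.1}) := by
    intro q hq
    filter_upwards [loc2 q hq] with y hy
    exact ⟨fun h => ⟨h, hy.1.le⟩, fun h => h.1⟩
  have hm : ∀ n, MapsTo (fun q : E3 × ℝ => (q.1, q.2 - tot T n q.1))
      (S ×ˢ Ici (0 : ℝ) ∩ {y | y.2 ≤ tot T n y.1}) (XT S P) :=
    fun n y hy => Or.inr ⟨hy.1.1, sub_nonpos.2 hy.2⟩
  refine ⟨u, c, ⟨fun x hx => ?_, fun x hx => ?_⟩, fun q hq => ?_, fun q hq => ?_, ?_,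
    fun x hx => ?_, fun q hq h0 => ?_, fun q hq => ?_⟩
  · exact ((pl_tot T (N x)).1.continuousAt.congr
      ((loc x hx).mono fun y hy => hy.1.symm)).continuousWithinAt
  · obtain ⟨n, hn⟩ := hc x hx
    have hlt : n < N x := by
      by_contra h
      exact (hN x (hSU hx)).self_of_nhds n (not_lt.1 h) hn
    exact ((T n).pos x hn).trans_le (Finset.single_le_sum (f := fun i => (T i).d x)
      (fun i _ => (T i).nonneg x) (Finset.mem_range.2 hlt))
  · have hq' : q ∈ S ×ˢ Ici (0 : ℝ) ∩ {y | y.2 ≤ tot T (N q.1) y.1} :=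
      ⟨⟨hq.1, hq.2.1⟩, hq.2.2.le⟩
    have a := continuous_fst.continuousAt.comp_continuousWithinAt
      (((cmp hX T (N q.1)).cont _ (hm _ hq')).comp
        (f := fun y : E3 × ℝ => (y.1, y.2 - tot T (N q.1) y.1))
        (hτ _).1.continuousWithinAt (hm _))
    have b := (continuousWithinAt_congr_set (s := S ×ˢ Ici (0 : ℝ))
      ((hD q hq).mono fun y hy => propext hy)).2 a
    exact b.congr_of_eventuallyEq
      (mem_nhdsWithin_of_mem_nhds ((loc2 q hq).mono fun y hy => hy.2.2)) rfl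
  · have hq' : q ∈ S ×ˢ Ici (0 : ℝ) ∩ {y | y.2 ≤ tot T (N q.1) y.1} :=
      ⟨⟨hq.1, hq.2.1⟩, hq.2.2.le⟩
    have s1 : ConicalSetAt (S ×ˢ Ici (0 : ℝ)) q :=
      cs_prod (hS _ hq.1) (Convex.conicalSetAt (convex_Ici 0) hq.2.1)
    have s2 := cs_congr s1 ((hD q hq).mono fun y hy => hy.symm)
    have a := (((cmp hX T (N q.1)).conical _ (hm _ hq')).comp
      (h := fun y : E3 × ℝ => (y.1, y.2 - tot T (N q.1) y.1)) ((hτ _).within s2) (hm _)
      (hτ _).1.continuousWithinAt).linear_comp (LinearMap.fst ℝ E3 ℝ)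
    exact a.congr_nhds (hD q hq) ((loc2 q hq).mono fun y hy _ => hy.2.2) rfl
  · intro q hq q' hq' h
    have a := key q.1 (hSU hq.1) (max (N q.1) (N q'.1)) fun m hm =>
      (hN _ (hSU hq.1)).self_of_nhds m ((le_max_left _ _).trans hm)
    have b := key q'.1 (hSU hq'.1) (max (N q.1) (N q'.1)) fun m hm =>
      (hN _ (hSU hq'.1)).self_of_nhds m ((le_max_right _ _).trans hm)
    have l1 := a.1 ▸ hq.2.2.le
    have l2 := b.1 ▸ hq'.2.2.le
    have e := (cmp hX T (max (N q.1) (N q'.1))).injOn (mem_XT hq.1 (sub_nonpos.2 l1))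
      (mem_XT hq'.1 (sub_nonpos.2 l2)) (Prod.ext (((a.2 q.2).symm.trans h).trans (b.2 q'.2))
        ((cmp_snd hX T _ hq.1 hq.2.1 l1).trans (cmp_snd hX T _ hq'.1 hq'.2.1 l2).symm))
    obtain ⟨e1, e2⟩ := Prod.ext_iff.1 e
    simp only at e1 e2
    rw [e1] at e2
    exact Prod.ext e1 (by linarith)
  · change ((cmp hX T (N x)).toFun (x, 0 - tot T (N x) x)).1 = x
    rw [cmp_shift hX T _ hx le_rfl]
  · exact (cmp_side hX T _ hq.1 h0 hq.2.2.le).1
  · have hq' : (q.1, q.2 - tot T (N q.1) q.1) ∈ XT S P := Or.inr ⟨hq.1, sub_nonpos.2 hq.2.2.le⟩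
    have e0 : (cmp hX T (N q.1)).toFun (q.1, q.2 - tot T (N q.1) q.1) = (c q, 0) :=
      Prod.ext rfl (cmp_snd hX T _ hq.1 hq.2.1 hq.2.2.le)
    have e1 : (cmp hX T (N q.1)).invFun (c q, 0) = (q.1, q.2 - tot T (N q.1) q.1) := by
      rw [← e0, (cmp hX T _).left_inv hq']
    have m0 : MapsTo (fun p : E3 => (p, (0 : ℝ))) (P ∪ S) (XT S P) := by
      rintro p (h | h)
      · exact Or.inl ⟨h, rfl⟩
      · exact Or.inr ⟨h, le_rfl⟩
    have t1 : Tendsto (fun p : E3 => (cmp hX T (N q.1)).invFun (p, 0)) (𝓝[P ∪ S] (c q))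
        (𝓝 (q.1, q.2 - tot T (N q.1) q.1)) := by
      rw [← e1]
      exact ((cmp hX T _).cont_inv _ (e0 ▸ (cmp hX T _).mapsTo hq')).comp
        (f := fun p : E3 => (p, (0 : ℝ))) (Continuous.continuousWithinAt (by fun_prop)) m0
    let j : E3 → E3 × ℝ := fun p => (((cmp hX T (N q.1)).invFun (p, 0)).1,
      ((cmp hX T (N q.1)).invFun (p, 0)).2 + tot T (N q.1) ((cmp hX T (N q.1)).invFun (p, 0)).1)
    have t2 : Tendsto j (𝓝[P ∪ S] (c q)) (𝓝 q) := by
      have := ((hτ' (N q.1)).1.tendsto _).comp t1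
      simp only [sub_add_cancel] at this
      exact this
    have t3 : ∀ᶠ p in 𝓝[P ∪ S] (c q), j p ∈ DH S u ∧ c (j p) = p := by
      filter_upwards [t2.eventually (loc2 q hq), self_mem_nhdsWithin] with p h1 h2
      have i1 := (cmp hX T (N q.1)).mapsTo_inv (m0 h2)
      have i2 := (cmp hX T (N q.1)).right_inv (m0 h2)
      have i3 : ((cmp hX T (N q.1)).invFun (p, 0)).2 < 0 := by
        have := h1.1
        simp only [j] at this
        linarith
      have i4 : (j p).1 ∈ S := by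
        rcases i1 with h | h
        · exact absurd h.2 i3.ne
        · exact h.1
      have i5 : ((j p).1, (j p).2 - tot T (N q.1) (j p).1) = (cmp hX T (N q.1)).invFun (p, 0) := by
        simp only [j, add_sub_cancel_right]
      refine ⟨⟨i4, ?_, h1.2.1 ▸ h1.1⟩, by rw [h1.2.2, i5, i2]⟩
      by_contra hneg
      have := cmp_shift hX T (N q.1) i4 (not_le.1 hneg).le
      rw [i5, i2] at this
      exact hneg (Prod.ext_iff.1 this).2.le
    have t4 : Tendsto j (𝓝[P ∪ S] (c q)) (𝓝[DH S u] q) :=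
      tendsto_nhdsWithin_iff.2 ⟨t2, t3.mono fun p h => h.1⟩
    exact le_map_of_right_inverse (t3.mono fun p h => h.2) t4

theorem exists_half (hL : LFL) {M : Set E3} (hU : IsOpen U) (hSU : S ⊆ U) (hcl : ClosedIn S U)
    (hS : PLMan 2 S) (hP : IsOpen P) (hM : IsOpen M) (hd : Disjoint P M) (hPM : P ∪ M = U \ S)
    (hSP : S ⊆ closure P) (hSM : S ⊆ closure M) : ∃ u c, Half S P u c := by
  classical
  have hg := fun x (hx : x ∈ S) V hV =>
    exists_good hL hU hSU hS hP hM hd hPM hSP hSM (x := x) hx (V := V) hV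
  have hPS : Disjoint P S := disjoint_left.2 fun y hy hyS =>
    (hPM ▸ (Or.inl hy : y ∈ P ∪ M) : y ∈ U \ S).2 hyS
  have hX : ConicalSet (XT S P) := cs_XT (U := U) hP hPS fun x hx => by
    obtain ⟨Φ, a, b, -⟩ := hg x hx univ univ_mem
    exact ⟨Φ, a, b⟩
  have : LocallyCompactSpace U := hU.locallyCompactSpace
  have hs : IsClosed {x : U | x.1 ∈ S} := by
    refine isClosed_of_closure_subset fun x hx => hcl x.1 x.2 ?_
    exact map_mem_closure continuous_subtype_val hx fun y hy => hy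
  obtain ⟨α, x, Φ, h1, h2, h3⟩ :=
    refinement_of_locallyCompact_sigmaCompact_of_nhds_basis_set (X := U) (ι := fun _ => AH)
      (p := fun x Φ => Good U S P Φ ∧ Φ.toFun x.1 = 0)
      (B := fun _ Φ => {y | ‖Φ.toFun y.1‖ < 1 / 2}) hs (by
        intro x hx
        refine ⟨fun V => ⟨fun hV => ?_, ?_⟩⟩
        · obtain ⟨W, hW, hWV⟩ := (mem_nhds_subtype _ _ _).1 hV
          obtain ⟨Φ, a, b, c⟩ := hg x.1 hx W hW
          exact ⟨Φ, ⟨a, b⟩, fun y hy => hWV (c y.1 (lt_trans hy (by norm_num)))⟩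
        · rintro ⟨Φ, ⟨-, b⟩, c⟩
          refine mem_of_superset ((isOpen_lt (Φ.continuous.comp continuous_subtype_val).norm
            continuous_const).mem_nhds ?_) c
          simp only [mem_ofPred_eq, Function.comp, b, norm_zero]
          norm_num)
  have hne : ∀ a, ({y : U | ‖(Φ a).toFun y.1‖ < 1 / 2}).Nonempty := fun a =>
    ⟨x a, by
      simp only [mem_ofPred_eq, (h1 a).2.2, norm_zero]
      norm_num⟩
  have : Countable α := countable_univ_iff.1 (h3.countable_univ hne)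
  obtain ⟨e, he⟩ := exists_injective_nat α
  choose T hT using fun a => (h1 a).2.1.exists_step hX
  let T' : ℕ → Step S P := fun n => if h : ∃ a, e a = n then T h.choose else Step.triv hX
  have hT' : ∀ a, T' (e a) = T a := by
    intro a
    have h : ∃ b, e b = e a := ⟨a, rfl⟩
    simp only [T', dif_pos h]
    rw [he h.choose_spec]
  refine half_of_steps hU hSU hX (cs_man hS) T' (fun y hy => ?_) fun y hy => ?_
  · obtain ⟨V, hV, hfin⟩ := h3 ⟨y, hy⟩
    obtain ⟨W, hW, hWV⟩ := (mem_nhds_subtype _ _ _).1 hV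
    refine ⟨W ∩ U, inter_mem hW (hU.mem_nhds hy), (hfin.image e).subset ?_⟩
    rintro n ⟨z, hz1, hz2, hz3⟩
    by_cases h : ∃ a, e a = n
    · obtain ⟨a, rfl⟩ := h
      simp only [hT', hT] at hz1
      exact ⟨a, ⟨⟨z, hz3⟩, hz1, hWV hz2⟩, rfl⟩
    · simp only [T', dif_neg h] at hz1
      exact absurd hz1 (notMem_empty _)
  · obtain ⟨a, ha⟩ := mem_iUnion.1 (h2 (show (⟨y, hSU hy⟩ : U) ∈ {x : U | x.1 ∈ S} from hy))
    exact ⟨e a, by rw [hT', hT]; exact ha⟩

end P073.Col
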