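import Vale.Agent.P073Z.COL.Chart

/-!
# Collars: one push along the fibres of a chart
-/

open Set Metric Topology Filter

namespace P073.Col

/-- one side with an outer collar attached -/
def XT (S P : Set E3) : Set (E3 × ℝ) := {q | (q.1 ∈ P ∧ q.2 = 0) ∨ (q.1 ∈ S ∧ q.2 ≤ 0)}

/-- the amount of the push -/
noncomputable def bump (v : E3) : ℝ := max 0 (1 / 2 - max |v 0| |v 1|)

/-- the new height -/
noncomputable def ht (Φ : AH) (ρ : ℝ × ℝ → ℝ) (q : E3 × ℝ) : ℝ :=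
  ρ (Φ.toFun q.1 2 + q.2, bump (Φ.toFun q.1))

/-- the push in a chart -/
noncomputable def push (Φ : AH) (ρ : ℝ × ℝ → ℝ) (q : E3 × ℝ) : E3 × ℝ :=
  (Φ.invFun (Function.update (Φ.toFun q.1) 2 (max (ht Φ ρ q) 0)), min (ht Φ ρ q) 0)

open Classical in
/-- the push, extended by the identity -/
noncomputable def pushx (Φ : AH) (ρ : ℝ × ℝ → ℝ) (q : E3 × ℝ) : E3 × ℝ :=
  if ‖Φ.toFun q.1‖ < 1 / 2 then push Φ ρ q else q

/-- admissible maps of the fibres -/
structure Adm (ρ : ℝ × ℝ → ℝ) : Prop where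
  pl : PL ρ
  zero : ∀ w, ρ (w, 0) = w
  big : ∀ w d, 1 / 2 ≤ w → ρ (w, d) = w
  small : ∀ w d, w < 1 / 2 → ρ (w, d) < 1 / 2

/-- upwards -/
noncomputable def up (q : ℝ × ℝ) : ℝ := max q.1 (min (q.1 + q.2) (1 / 3 * q.1 + 1 / 3))

/-- downwards -/
noncomputable def dn (q : ℝ × ℝ) : ℝ := min q.1 (max (q.1 - q.2) (3 * q.1 - 1))

theorem adm_up : Adm up where
  pl := PL.fst.max ((PL.fst.add PL.snd).min ((PL.fst.mul _).add (PL.const _)))
  zero w := by simp [up]
  big w d h := max_eq_left ((min_le_right _ _).trans (by simp only; linarith))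
  small w d h := max_lt h ((min_le_right _ _).trans_lt (by simp only; linarith))

theorem adm_dn : Adm dn where
  pl := PL.fst.min ((PL.fst.sub PL.snd).max ((PL.fst.mul _).sub (PL.const _)))
  zero w := by simp [dn]
  big w d h := min_eq_left (le_trans (by simp only; linarith) (le_max_right _ _))
  small w d h := (min_le_left _ _).trans_lt h

theorem dn_up (w d : ℝ) (hd : 0 ≤ d) : dn (up (w, d), d) = w := by
  simp only [dn, up, max_def, min_def]
  split_ifs <;> linarith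

theorem up_dn (w d : ℝ) (hd : 0 ≤ d) : up (dn (w, d), d) = w := by
  simp only [dn, up, max_def, min_def]
  split_ifs <;> linarith

theorem up_shift (w d : ℝ) (hd : 0 ≤ d) (hd1 : d ≤ 1) (h : w + d ≤ 0) : up (w, d) = w + d := by
  simp only [up, max_def, min_def]
  split_ifs <;> linarith

theorem bump_nonneg (v : E3) : 0 ≤ bump v := le_max_left _ _

theorem bump_le (v : E3) : bump v ≤ 1 := by
  have : 0 ≤ max |v 0| |v 1| := le_max_of_le_left (abs_nonneg _)
  exact max_le zero_le_one (by linarith)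

theorem bump_update (v : E3) (t : ℝ) : bump (Function.update v 2 t) = bump v := by
  simp [bump]

theorem pl_bump : PL bump :=
  (PL.const _).max ((PL.const _).sub
    (((PL.clm (ContinuousLinearMap.id ℝ E3)).apply 0).abs.max
      ((PL.clm (ContinuousLinearMap.id ℝ E3)).apply 1).abs))

theorem pl_push (Φ : AH) {ρ : ℝ × ℝ → ℝ} (h : PL ρ) : PL (push Φ ρ) := by
  have h1 : PL fun q : E3 × ℝ => Φ.toFun q.1 := (pl_to Φ).comp PL.fst
  have h2 : PL (ht Φ ρ) := h.comp (((h1.apply 2).add PL.snd).prod (pl_bump.comp h1))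
  refine ((pl_inv Φ).comp (PL.pi fun i => ?_)).prod (h2.min (PL.const _))
  by_cases hi : i = 2
  · subst hi
    simpa only [Function.update_self] using h2.max (PL.const (0 : ℝ))
  · simpa only [Function.update_of_ne hi] using h1.apply i

theorem norm_lt_iff {v : E3} {r : ℝ} : ‖v‖ < r ↔ |v 0| < r ∧ |v 1| < r ∧ |v 2| < r := by
  constructor
  · intro h
    exact ⟨(norm_le_pi_norm v 0).trans_lt h, (norm_le_pi_norm v 1).trans_lt h,
      (norm_le_pi_norm v 2).trans_lt h⟩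
  · rintro ⟨a, b, c⟩
    rw [pi_norm_lt_iff ((abs_nonneg _).trans_lt a)]
    intro i
    fin_cases i
    exacts [a, b, c]

variable {U S P : Set E3} {Φ : AH} {ρ ρ' : ℝ × ℝ → ℝ}

theorem Good.coord (hG : Good U S P Φ) {q : E3 × ℝ} (hq : q ∈ XT S P) (h : ‖Φ.toFun q.1‖ < 2) :
    0 ≤ Φ.toFun q.1 2 ∧ q.2 ≤ 0 ∧ (Φ.toFun q.1 2 = 0 ∨ q.2 = 0) := by
  obtain ⟨-, h2, h3⟩ := hG _ h
  rcases hq with ⟨a, b⟩ | ⟨a, b⟩
  · exact ⟨(h3.1 a).le, b.le, Or.inr b⟩
  · exact ⟨(h2.1 a).ge, b, Or.inl (h2.1 a)⟩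

theorem Good.push_of_eq (hG : Good U S P Φ) {q q' : E3 × ℝ} (hq : q ∈ XT S P)
    (h : ‖Φ.toFun q.1‖ < 2) (h0 : Φ.toFun q'.1 0 = Φ.toFun q.1 0)
    (h1 : Φ.toFun q'.1 1 = Φ.toFun q.1 1) (h2 : ht Φ ρ q' = Φ.toFun q.1 2 + q.2) :
    push Φ ρ q' = q := by
  obtain ⟨a, b, c⟩ := hG.coord hq h
  have e1 : max (Φ.toFun q.1 2 + q.2) 0 = Φ.toFun q.1 2 := by
    rcases c with c | c
    · rw [c, zero_add, max_eq_right b]
    · rw [c, add_zero, max_eq_left a]
  have e2 : min (Φ.toFun q.1 2 + q.2) 0 = q.2 := by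
    rcases c with c | c
    · rw [c, zero_add, min_eq_left b]
    · rw [c, add_zero, min_eq_right a]
  have e3 : Function.update (Φ.toFun q'.1) 2 (Φ.toFun q.1 2) = Φ.toFun q.1 := by
    funext i
    fin_cases i
    · simpa using h0
    · simpa using h1
    · simp
  rw [push, h2, e1, e2, e3, Φ.inv_apply]

theorem Good.push_self (hG : Good U S P Φ) (hρ : Adm ρ) {q : E3 × ℝ} (hq : q ∈ XT S P)
    (h : ‖Φ.toFun q.1‖ < 2) (h' : ¬ ‖Φ.toFun q.1‖ < 1 / 2) : push Φ ρ q = q := by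
  refine hG.push_of_eq hq h rfl rfl ?_
  obtain ⟨a, b, c⟩ := hG.coord hq h
  by_cases hb : max |Φ.toFun q.1 0| |Φ.toFun q.1 1| < 1 / 2
  · have h2 : 1 / 2 ≤ Φ.toFun q.1 2 := by
      by_contra hl
      exact h' (norm_lt_iff.2 ⟨(le_max_left _ _).trans_lt hb, (le_max_right _ _).trans_lt hb,
        by rw [abs_of_nonneg a]; exact not_le.1 hl⟩)
    have h3 : q.2 = 0 := c.resolve_left (by linarith)
    exact hρ.big _ _ (by linarith)
  · have : bump (Φ.toFun q.1) = 0 := max_eq_left (by linarith)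
    rw [ht, this, hρ.zero]

theorem push_coord (q : E3 × ℝ) :
    Φ.toFun (push Φ ρ q).1 = Function.update (Φ.toFun q.1) 2 (max (ht Φ ρ q) 0) :=
  Φ.apply_inv _

theorem Good.push_mem (hG : Good U S P Φ) (hρ : Adm ρ) {q : E3 × ℝ} (hq : q ∈ XT S P)
    (h : ‖Φ.toFun q.1‖ < 1 / 2) :
    ‖Φ.toFun (push Φ ρ q).1‖ < 1 / 2 ∧ push Φ ρ q ∈ XT S P := by
  obtain ⟨a, b, c⟩ := hG.coord hq (by linarith)
  obtain ⟨n0, n1, n2⟩ := norm_lt_iff.1 h
  have h1 : ht Φ ρ q < 1 / 2 := hρ.small _ _ (by linarith [le_abs_self (Φ.toFun q.1 2)])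
  have h2 : ‖Φ.toFun (push Φ ρ q).1‖ < 1 / 2 := by
    rw [push_coord, norm_lt_iff]
    refine ⟨by simpa using n0, by simpa using n1, ?_⟩
    rw [Function.update_self, abs_of_nonneg (le_max_right _ _)]
    exact max_lt h1 (by norm_num)
  refine ⟨h2, ?_⟩
  obtain ⟨-, g2, g3⟩ := hG _ (show ‖Φ.toFun (push Φ ρ q).1‖ < 2 by linarith)
  rw [push_coord, Function.update_self] at g2 g3
  rcases lt_or_ge 0 (ht Φ ρ q) with l | l
  · exact Or.inl ⟨g3.2 (lt_max_of_lt_left l), min_eq_right l.le⟩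
  · exact Or.inr ⟨g2.2 (max_eq_right l), min_le_right _ _⟩

theorem Good.pushx_maps (hG : Good U S P Φ) (hρ : Adm ρ) :
    MapsTo (pushx Φ ρ) (XT S P) (XT S P) := by
  intro q hq
  rw [pushx]
  split_ifs with h
  · exact (hG.push_mem hρ hq h).2
  · exact hq

theorem Good.pushx_inv (hG : Good U S P Φ) (hρ : Adm ρ)
    (hi : ∀ w d, 0 ≤ d → ρ' (ρ (w, d), d) = w) :
    LeftInvOn (pushx Φ ρ') (pushx Φ ρ) (XT S P) := by
  intro q hq
  by_cases h : ‖Φ.toFun q.1‖ < 1 / 2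
  · have h1 : pushx Φ ρ q = push Φ ρ q := if_pos h
    rw [h1, pushx, if_pos (hG.push_mem hρ hq h).1]
    refine hG.push_of_eq hq (by linarith) ?_ ?_ ?_
    · rw [push_coord]; simp
    · rw [push_coord]; simp
    · rw [ht, push_coord, bump_update, Function.update_self]
      have : max (ht Φ ρ q) 0 + (push Φ ρ q).2 = ht Φ ρ q := by
        change max (ht Φ ρ q) 0 + min (ht Φ ρ q) 0 = _
        rw [max_add_min, add_zero]
      rw [this]
      exact hi _ _ (bump_nonneg _)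
  · have h1 : pushx Φ ρ q = q := if_neg h
    rw [h1, pushx, if_neg h]

theorem Good.pushx_local (hG : Good U S P Φ) (hρ : Adm ρ) (q : E3 × ℝ) :
    ∃ f : E3 × ℝ → E3 × ℝ, PL f ∧ ∀ᶠ y in 𝓝 q, y ∈ XT S P → pushx Φ ρ y = f y := by
  have hc : Continuous fun y : E3 × ℝ => ‖Φ.toFun y.1‖ := (Φ.continuous.comp continuous_fst).norm
  rcases lt_or_ge ‖Φ.toFun q.1‖ 2 with h | h
  · refine ⟨push Φ ρ, pl_push Φ hρ.pl, ?_⟩
    filter_upwards [hc.continuousAt.eventually_lt_const h] with y hy hyX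
    rw [pushx]
    split_ifs with h1
    · rfl
    · exact (hG.push_self hρ hyX hy h1).symm
  · refine ⟨fun y => y, PL.clm (ContinuousLinearMap.id ℝ _), ?_⟩
    filter_upwards [hc.continuousAt.eventually_const_lt
      (show 1 / 2 < ‖Φ.toFun q.1‖ by linarith)] with y hy _
    exact if_neg (not_lt.2 hy.le)

theorem Good.pushx_cont (hG : Good U S P Φ) (hρ : Adm ρ) :
    ContinuousOn (pushx Φ ρ) (XT S P) := by
  intro q hq
  obtain ⟨f, hf, he⟩ := hG.pushx_local hρ q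
  exact hf.1.continuousWithinAt.congr_of_eventuallyEq (eventually_nhdsWithin_iff.2 he)
    (he.self_of_nhds hq)

theorem Good.pushx_con (hG : Good U S P Φ) (hρ : Adm ρ) (hX : ConicalSet (XT S P)) :
    ConicalOn (pushx Φ ρ) (XT S P) := by
  intro q hq
  obtain ⟨f, hf, he⟩ := hG.pushx_local hρ q
  exact (hf.within (hX q hq)).congr_nhds (Eventually.of_forall fun _ => Iff.rfl) he
    (he.self_of_nhds hq)

/-- one step of the construction -/
structure Step (S P : Set E3) where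
  /-- the push -/
  k : ConHomeo (XT S P) (XT S P)
  /-- its support -/
  A : Set E3
  /-- its amount -/
  d : E3 → ℝ
  pl : PL d
  nonneg : ∀ y, 0 ≤ d y
  fix : ∀ q, q.1 ∉ A → k.toFun q = q
  dz : ∀ y, y ∉ A → d y = 0
  pos : ∀ y ∈ A, 0 < d y
  shift : ∀ y ∈ S, ∀ s, s + d y ≤ 0 → k.toFun (y, s) = (y, s + d y)

/-- the trivial step -/
noncomputable def Step.triv (hX : ConicalSet (XT S P)) : Step S P where
  k := ConHomeo.refl hX
  A := ∅
  d := fun _ => 0
  pl := PL.const _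
  nonneg := fun _ => le_rfl
  fix := fun _ _ => rfl
  dz := fun _ _ => rfl
  pos := fun _ h => absurd h (notMem_empty _)
  shift := fun y _ s _ => by rw [add_zero]; rfl

theorem Good.exists_step (hG : Good U S P Φ) (hX : ConicalSet (XT S P)) :
    ∃ T : Step S P, T.A = {y | ‖Φ.toFun y‖ < 1 / 2} := by
  have hz : ∀ y, ¬ ‖Φ.toFun y‖ < 1 / 2 →
      max 0 (1 / 2 - max (max |Φ.toFun y 0| |Φ.toFun y 1|) |Φ.toFun y 2|) = 0 := by
    intro y hy
    refine max_eq_left ?_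
    by_contra hl
    have h1 : max (max |Φ.toFun y 0| |Φ.toFun y 1|) |Φ.toFun y 2| < 1 / 2 := by linarith
    rw [max_lt_iff, max_lt_iff] at h1
    exact hy (norm_lt_iff.2 ⟨h1.1.1, h1.1.2, h1.2⟩)
  refine ⟨
    { k :=
        { toFun := pushx Φ up
          invFun := pushx Φ dn
          mapsTo := hG.pushx_maps adm_up
          mapsTo_inv := hG.pushx_maps adm_dn
          left_inv := hG.pushx_inv adm_up dn_up
          right_inv := hG.pushx_inv adm_dn up_dn
          cont := hG.pushx_cont adm_up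
          cont_inv := hG.pushx_cont adm_dn
          conical := hG.pushx_con adm_up hX }
      A := {y | ‖Φ.toFun y‖ < 1 / 2}
      d := fun y => max 0 (1 / 2 - max (max |Φ.toFun y 0| |Φ.toFun y 1|) |Φ.toFun y 2|)
      pl := (PL.const _).max ((PL.const _).sub
        ((((pl_to Φ).apply 0).abs.max ((pl_to Φ).apply 1).abs).max ((pl_to Φ).apply 2).abs))
      nonneg := fun _ => le_max_left _ _
      fix := fun q hq => if_neg hq
      dz := hz
      pos := fun y hy => ?_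
      shift := fun y hy s hs => ?_ }, rfl⟩
  · obtain ⟨a, b, c⟩ := norm_lt_iff.1 (show ‖Φ.toFun y‖ < 1 / 2 from hy)
    exact lt_max_of_lt_right (sub_pos.2 (max_lt (max_lt a b) c))
  · change pushx Φ up (y, s) = _
    by_cases h : ‖Φ.toFun y‖ < 1 / 2
    · have h2 : Φ.toFun y 2 = 0 := (hG y (by linarith)).2.1.1 hy
      have h3 : max 0 (1 / 2 - max (max |Φ.toFun y 0| |Φ.toFun y 1|) |Φ.toFun y 2|) =
          bump (Φ.toFun y) := by
        rw [h2, abs_zero, max_eq_left (le_max_of_le_left (abs_nonneg _)), bump]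
      rw [h3] at hs ⊢
      rw [pushx, if_pos h]
      refine hG.push_of_eq (q := (y, s + bump (Φ.toFun y))) (Or.inr ⟨hy, hs⟩) (by
        change ‖Φ.toFun y‖ < 2
        linarith) rfl rfl ?_
      change up (Φ.toFun y 2 + s, bump (Φ.toFun y)) = Φ.toFun y 2 + (s + bump (Φ.toFun y))
      rw [h2, zero_add, zero_add]
      exact up_shift _ _ (bump_nonneg _) (bump_le _) hs
    · rw [hz y h, add_zero, pushx, if_neg h]

theorem cs_XT (hP : IsOpen P) (hd : Disjoint P S)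
    (hS : ∀ x ∈ S, ∃ Φ : AH, Good U S P Φ ∧ Φ.toFun x = 0) : ConicalSet (XT S P) := by
  rintro q (⟨a, b⟩ | ⟨a, b⟩)
  · have h1 : ConicalSetAt ((univ : Set E3) ×ˢ ({0} : Set ℝ)) q :=
      Convex.conicalSetAt (convex_univ.prod (convex_singleton _)) ⟨mem_univ _, b⟩
    refine cs_congr h1 ?_
    filter_upwards [continuous_fst.continuousAt.eventually (hP.mem_nhds a)] with y hy
    constructor
    · rintro (⟨_, d⟩ | ⟨c, _⟩)
      · exact ⟨mem_univ _, d⟩
      · exact absurd c (disjoint_left.1 hd hy)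
    · exact fun h => Or.inl ⟨hy, h.2⟩
  · obtain ⟨Φ, hG, h0⟩ := hS _ a
    have hz : PL fun q : E3 × ℝ => Φ.toFun q.1 2 := ((pl_to Φ).comp PL.fst).apply 2
    have hs : PL fun q : E3 × ℝ => q.2 := PL.snd
    have h1 := ((locCone_setOf_gt hz.1 hz.2 0).inter (locCone_setOf_eq hs.1 hs.2 0)).union
      ((locCone_setOf_eq hz.1 hz.2 0).inter (locCone_setOf_le hs.1 hs.2 0))
    have hc : Continuous fun y : E3 × ℝ => ‖Φ.toFun y.1‖ :=
      (Φ.continuous.comp continuous_fst).norm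
    have h2 : ∀ᶠ y in 𝓝 q, ‖Φ.toFun y.1‖ < 2 :=
      hc.continuousAt.eventually_lt_const (by simp only [h0, norm_zero]; norm_num)
    refine ((locConeAt_congr ?_).1 (h1 q)).conicalSetAt (Or.inr ⟨a, b⟩)
    filter_upwards [h2] with y hy
    obtain ⟨-, g2, g3⟩ := hG _ hy
    exact or_congr (and_congr g3.symm Iff.rfl) (and_congr g2.symm Iff.rfl)

end P073.Col
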