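import Vale.Agent.P073Z.COL.Half

/-!
# Collars: both sides, and thinning
-/

open Set Metric Topology Filter

namespace P073.Col

variable {U S P M : Set E3}

/-- the domain of the two-sided collar -/
def DB (S : Set E3) (w : E3 → ℝ) : Set (E3 × ℝ) := {q | q.1 ∈ S ∧ |q.2| < w q.1}

/-- a two-sided collar of variable width -/
structure Bi (S P M : Set E3) (w : E3 → ℝ) (κ : E3 × ℝ → E3) : Prop where
  gauge : Gauge w S
  cont : ∀ q ∈ DB S w, ContinuousWithinAt κ (S ×ˢ univ) q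
  con : ∀ q ∈ DB S w, ConicalWithinAt κ (S ×ˢ univ) q
  inj : InjOn κ (DB S w)
  zero : ∀ x ∈ S, κ (x, 0) = x
  pos : ∀ q ∈ DB S w, 0 < q.2 → κ q ∈ P
  neg : ∀ q ∈ DB S w, q.2 < 0 → κ q ∈ M
  opn : ∀ q ∈ DB S w, 𝓝 (κ q) ≤ map κ (𝓝[DB S w] q)

theorem ev_lt {w : E3 → ℝ} (hw : ContinuousOn w S) {X : Set (E3 × ℝ)} (hX : ∀ y ∈ X, y.1 ∈ S)
    {q : E3 × ℝ} (hq : q.1 ∈ S) (h : |q.2| < w q.1) : ∀ᶠ y in 𝓝[X] q, |y.2| < w y.1 :=
  Filter.Tendsto.eventually_lt (f := fun y : E3 × ℝ => |y.2|) (g := fun y => w y.1)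
    (Continuous.continuousWithinAt (f := fun y : E3 × ℝ => |y.2|) (by fun_prop))
    ((hw _ hq).comp continuous_fst.continuousWithinAt hX) h

theorem exists_bi (hU : IsOpen U) (hSU : S ⊆ U) (hS : ConicalSet S) (hP : IsOpen P)
    (hM : IsOpen M) (hd : Disjoint P M) (hPM : P ∪ M = U \ S) {u u' : E3 → ℝ}
    {c c' : E3 × ℝ → E3} (h : Half S P u c) (h' : Half S M u' c') : ∃ w κ, Bi S P M w κ := by
  let w : E3 → ℝ := fun x => min (u x) (u' x)
  let κ : E3 × ℝ → E3 := fun q => c (q.1, max q.2 0) + c' (q.1, max (-q.2) 0) - q.1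
  have hw : Gauge w S := ⟨h.gauge.1.inf h'.gauge.1, fun x hx =>
    lt_min (h.gauge.2 x hx) (h'.gauge.2 x hx)⟩
  have e1 : ∀ q : E3 × ℝ, q.1 ∈ S → 0 ≤ q.2 → κ q = c q := by
    intro q a b
    simp only [κ]
    rw [max_eq_left b, max_eq_right (neg_nonpos.2 b), h'.zero _ a, add_sub_cancel_right]
  have e2 : ∀ q : E3 × ℝ, q.1 ∈ S → q.2 ≤ 0 → κ q = c' (q.1, -q.2) := by
    intro q a b
    simp only [κ]
    rw [max_eq_right b, max_eq_left (neg_nonneg.2 b), h.zero _ a, add_sub_cancel_left]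
  have m1 : ∀ q ∈ DB S w, (q.1, max q.2 0) ∈ DH S u := fun q hq =>
    ⟨hq.1, le_max_right _ _, (max_le (le_abs_self _) (abs_nonneg _)).trans_lt
      (hq.2.trans_le (min_le_left _ _))⟩
  have m2 : ∀ q ∈ DB S w, (q.1, max (-q.2) 0) ∈ DH S u' := fun q hq =>
    ⟨hq.1, le_max_right _ _, (max_le (neg_le_abs _) (abs_nonneg _)).trans_lt
      (hq.2.trans_le (min_le_right _ _))⟩
  have n1 : ∀ q ∈ DB S w, 0 ≤ q.2 → q ∈ DH S u := fun q hq h0 =>
    ⟨hq.1, h0, (le_abs_self _).trans_lt (hq.2.trans_le (min_le_left _ _))⟩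
  have n2 : ∀ q ∈ DB S w, q.2 ≤ 0 → (q.1, -q.2) ∈ DH S u' := fun q hq h0 =>
    ⟨hq.1, neg_nonneg.2 h0, (neg_le_abs _).trans_lt (hq.2.trans_le (min_le_right _ _))⟩
  have p1 : PL fun q : E3 × ℝ => (q.1, max q.2 0) := PL.fst.prod (PL.snd.max (PL.const _))
  have p2 : PL fun q : E3 × ℝ => (q.1, max (-q.2) 0) := PL.fst.prod (PL.snd.neg.max (PL.const _))
  have t1 : MapsTo (fun q : E3 × ℝ => (q.1, max q.2 0)) (S ×ˢ univ) (S ×ˢ Ici 0) :=
    fun q hq => ⟨hq.1, mem_Ici.2 (le_max_right _ _)⟩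
  have t2 : MapsTo (fun q : E3 × ℝ => (q.1, max (-q.2) 0)) (S ×ˢ univ) (S ×ˢ Ici 0) :=
    fun q hq => ⟨hq.1, mem_Ici.2 (le_max_right _ _)⟩
  have pos : ∀ q ∈ DB S w, 0 < q.2 → κ q ∈ P := fun q hq h0 => by
    rw [e1 q hq.1 h0.le]; exact h.side q (n1 q hq h0.le) h0
  have neg : ∀ q ∈ DB S w, q.2 < 0 → κ q ∈ M := fun q hq h0 => by
    rw [e2 q hq.1 h0.le]; exact h'.side _ (n2 q hq h0.le) (neg_pos.2 h0)
  have zero : ∀ x ∈ S, κ (x, 0) = x := fun x hx => by rw [e1 _ hx le_rfl, h.zero x hx]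
  have mix : ∀ q ∈ DB S w, ∀ q' ∈ DB S w, 0 ≤ q.2 → q'.2 < 0 → κ q ≠ κ q' := by
    intro q hq q' hq' a b e
    have hm := neg q' hq' b
    rw [← e] at hm
    rcases eq_or_lt_of_le a with a | a
    · have : κ q = q.1 := by rw [← zero _ hq.1, a]
      exact (hPM ▸ (Or.inr hm : κ q ∈ P ∪ M) : κ q ∈ U \ S).2 (this ▸ hq.1)
    · exact disjoint_left.1 hd (pos q hq a) hm
  have o1 : ∀ q ∈ DB S w, 0 ≤ q.2 → 𝓝[P ∪ S] (κ q) ≤ map κ (𝓝[DB S w] q) := by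
    intro q hq h0
    rw [e1 q hq.1 h0]
    refine (h.opn q (n1 q hq h0)).trans ?_
    have a : 𝓝[DH S u] q ≤ 𝓝[DB S w] q := by
      refine nhdsWithin_le_of_mem ?_
      filter_upwards [ev_lt hw.1 (X := DH S u) (fun y hy => hy.1) hq.1 hq.2,
        self_mem_nhdsWithin] with y a b
      exact ⟨b.1, a⟩
    have b : c =ᶠ[𝓝[DH S u] q] κ := by
      filter_upwards [self_mem_nhdsWithin] with y b
      exact (e1 y b.1 b.2.1).symm
    rw [map_congr b]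
    exact map_mono a
  have o2 : ∀ q ∈ DB S w, q.2 ≤ 0 → 𝓝[M ∪ S] (κ q) ≤ map κ (𝓝[DB S w] q) := by
    intro q hq h0
    rw [e2 q hq.1 h0]
    refine (h'.opn _ (n2 q hq h0)).trans ?_
    have a : Tendsto (fun y : E3 × ℝ => (y.1, -y.2)) (𝓝[DH S u'] (q.1, -q.2)) (𝓝[DB S w] q) := by
      refine tendsto_nhdsWithin_iff.2 ⟨?_, ?_⟩
      · have : Tendsto (fun y : E3 × ℝ => (y.1, -y.2)) (𝓝 (q.1, -q.2)) (𝓝 (q.1, - -q.2)) :=
          (Continuous.tendsto (by fun_prop) _)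
        rw [neg_neg] at this
        exact this.mono_left nhdsWithin_le_nhds
      · filter_upwards [ev_lt hw.1 (X := DH S u') (q := (q.1, -q.2)) (fun y hy => hy.1) hq.1
          (by rw [abs_neg]; exact hq.2), self_mem_nhdsWithin] with y a b
        exact ⟨b.1, by rw [abs_neg]; exact a⟩
    have b : c' =ᶠ[𝓝[DH S u'] (q.1, -q.2)] κ ∘ fun y : E3 × ℝ => (y.1, -y.2) := by
      filter_upwards [self_mem_nhdsWithin] with y b
      rw [Function.comp, e2 (y.1, -y.2) b.1 (neg_nonpos.2 b.2.1), neg_neg]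
    rw [map_congr b, ← map_map]
    exact map_mono a
  refine ⟨w, κ, hw, fun q hq => ?_, fun q hq => ?_, ?_, zero, pos, neg, fun q hq => ?_⟩
  · exact (((h.cont _ (m1 q hq)).comp (f := fun q : E3 × ℝ => (q.1, max q.2 0))
      p1.1.continuousWithinAt t1).add ((h'.cont _ (m2 q hq)).comp
        (f := fun q : E3 × ℝ => (q.1, max (-q.2) 0)) p2.1.continuousWithinAt t2)).sub
      continuous_fst.continuousWithinAt
  · have s1 : ConicalSetAt (S ×ˢ (univ : Set ℝ)) q := cs_prod (hS _ hq.1) (cs_univ _ trivial)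
    exact (((h.con _ (m1 q hq)).comp (h := fun q : E3 × ℝ => (q.1, max q.2 0)) (p1.within s1) t1
      p1.1.continuousWithinAt).add ((h'.con _ (m2 q hq)).comp
        (h := fun q : E3 × ℝ => (q.1, max (-q.2) 0)) (p2.within s1) t2
        p2.1.continuousWithinAt)).sub (PL.fst.within s1)
  · intro q hq q' hq' e
    rcases le_or_gt 0 q.2 with a | a <;> rcases le_or_gt 0 q'.2 with b | b
    · rw [e1 q hq.1 a, e1 q' hq'.1 b] at e
      exact h.inj (n1 q hq a) (n1 q' hq' b) e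
    · exact absurd e (mix q hq q' hq' a b)
    · exact absurd e.symm (mix q' hq' q hq b a)
    · rw [e2 q hq.1 a.le, e2 q' hq'.1 b.le] at e
      obtain ⟨f1, f2⟩ := Prod.ext_iff.1 (h'.inj (n2 q hq a.le) (n2 q' hq' b.le) e)
      exact Prod.ext f1 (neg_injective f2)
  · rcases lt_trichotomy q.2 0 with a | a | a
    · rw [← nhdsWithin_eq_nhds.2 (mem_of_superset (hM.mem_nhds (neg q hq a))
        (subset_union_left (t := S)))]
      exact o2 q hq a.le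
    · have e : κ q = q.1 := by rw [← zero _ hq.1, ← a]
      have b : (P ∪ S) ∪ (M ∪ S) ∈ 𝓝 (κ q) := by
        refine mem_of_superset (hU.mem_nhds (e ▸ hSU hq.1)) fun y hy => ?_
        by_cases hy2 : y ∈ S
        · exact Or.inl (Or.inr hy2)
        · rcases (hPM ▸ ⟨hy, hy2⟩ : y ∈ P ∪ M) with g | g
          · exact Or.inl (Or.inl g)
          · exact Or.inr (Or.inl g)
      rw [← nhdsWithin_eq_nhds.2 b, nhdsWithin_union]
      exact sup_le (o1 q hq a.ge) (o2 q hq a.le)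
    · rw [← nhdsWithin_eq_nhds.2 (mem_of_superset (hP.mem_nhds (pos q hq a))
        (subset_union_left (t := S)))]
      exact o1 q hq a.le

/-- the point `y` is very close to `x` -/
def Near (U : Set E3) (ε : E3 → ℝ) (y x : E3) : Prop :=
  dist y x < ε x ∧ dist y x < 1 ∧ ∀ z, z ∉ U → 2 * dist y x < dist x z

/-- a thin two-sided collar -/
structure Thin (S U P M : Set E3) (ε : E3 → ℝ) (κ : E3 × ℝ → E3) : Prop where
  cont : ContinuousOn κ (S ×ˢ Icc (-1) 1)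
  con : ConicalOn κ (S ×ˢ Icc (-1) 1)
  inj : InjOn κ (S ×ˢ Icc (-1) 1)
  zero : ∀ x ∈ S, κ (x, 0) = x
  pos : ∀ q ∈ S ×ˢ Icc (-1 : ℝ) 1, 0 < q.2 → κ q ∈ P
  neg : ∀ q ∈ S ×ˢ Icc (-1 : ℝ) 1, q.2 < 0 → κ q ∈ M
  opn : ∀ q ∈ S ×ˢ Ioo (-1 : ℝ) 1, 𝓝 (κ q) ≤ map κ (𝓝[S ×ˢ Icc (-1) 1] q)
  near : ∀ q ∈ S ×ˢ Icc (-1 : ℝ) 1, Near U ε (κ q) q.1

theorem Bi.gauge_near {w ε : E3 → ℝ} {κ : E3 × ℝ → E3} (h : Bi S P M w κ) (hU : IsOpen U)
    (hcl : ClosedIn S U) (hε : Gauge ε S) : ∃ r, Gauge r U ∧ ∀ x ∈ U, r x ≤ 1 ∧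
      (x ∈ S → r x < w x ∧ ∀ s, |s| ≤ r x → Near U ε (κ (x, s)) x) := by
  classical
  obtain ⟨g, hg⟩ := exists_continuous_forall_mem_convex_of_local_const (X := U) (E := ℝ)
    (t := fun x => {r | 0 < r ∧ r ≤ 1 ∧
      (x.1 ∈ S → r < w x.1 ∧ ∀ s, |s| ≤ r → Near U ε (κ (x.1, s)) x.1)})
    (fun x => convex_iff_ordConnected.2 ⟨fun a ha b hb r hr => ⟨ha.1.trans_le hr.1,
      hr.2.trans hb.2.1, fun hx => ⟨hr.2.trans_lt (hb.2.2 hx).1,
        fun s hs => (hb.2.2 hx).2 s (hs.trans hr.2)⟩⟩⟩) (by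
    intro x
    by_cases hx : x.1 ∈ S
    · have hq : (x.1, (0 : ℝ)) ∈ DB S w := ⟨hx, by rw [abs_zero]; exact h.gauge.2 _ hx⟩
      obtain ⟨R, hR, hb⟩ := Metric.isOpen_iff.1 hU x.1 x.2
      have c1 : ContinuousWithinAt (fun y : E3 × ℝ => dist (κ y) y.1) (S ×ˢ univ) (x.1, 0) :=
        (h.cont _ hq).dist continuous_fst.continuousWithinAt
      have c0 : dist (κ (x.1, 0)) x.1 = 0 := by rw [h.zero _ hx, dist_self]
      have c2 : ContinuousWithinAt (fun y : E3 × ℝ => ε y.1) (S ×ˢ univ) (x.1, 0) :=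
        (hε.1 _ hx).comp (f := Prod.fst) (x := (x.1, (0 : ℝ)))
          continuous_fst.continuousWithinAt fun y hy => hy.1
      have a1 := c1.eventually_lt c2 (by simp only [c0]; exact hε.2 _ hx)
      have a2 := c1.eventually_lt (g := fun _ => min 1 (R / 3)) continuousWithinAt_const
        (by simp only [c0]; positivity)
      have a3 := ev_lt h.gauge.1 (X := S ×ˢ univ) (fun y hy => hy.1) hq.1 hq.2
      obtain ⟨δ, hδ, hb2⟩ := Metric.eventually_nhds_iff_ball.1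
        (eventually_nhdsWithin_iff.1 (a1.and (a2.and a3)))
      refine ⟨min (δ / 2) 1, ?_⟩
      filter_upwards [continuous_subtype_val.continuousAt.eventually
        (ball_mem_nhds x.1 (lt_min hδ (by positivity : 0 < R / 3)))] with y hy
      have hy1 : dist y.1 x.1 < δ := (mem_ball.1 hy).trans_le (min_le_left _ _)
      have hy2 : dist y.1 x.1 < R / 3 := (mem_ball.1 hy).trans_le (min_le_right _ _)
      have h0 : 0 < min (δ / 2) 1 := by positivity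
      refine ⟨h0, min_le_right _ _, fun hyS => ?_⟩
      have k : ∀ s, |s| ≤ min (δ / 2) 1 → _ := fun s hs => hb2 (y.1, s) (by
        rw [mem_ball, Prod.dist_eq, max_lt_iff]
        refine ⟨hy1, ?_⟩
        rw [Real.dist_eq, sub_zero]
        linarith [min_le_left (δ / 2) 1]) ⟨hyS, trivial⟩
      refine ⟨(le_abs_self _).trans_lt (k _ (abs_of_pos h0).le).2.2, fun s hs => ?_⟩
      obtain ⟨k1, k2, -⟩ := k s hs
      rw [lt_min_iff] at k2
      refine ⟨k1, k2.1, fun z hz => ?_⟩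
      have z1 : R ≤ dist z x.1 := not_lt.1 fun hl => hz (hb hl)
      have z2 := dist_triangle z y.1 x.1
      rw [dist_comm z y.1] at z2
      linarith [k2.2]
    · refine ⟨1, ?_⟩
      have : (closure S)ᶜ ∈ 𝓝 x.1 :=
        isClosed_closure.isOpen_compl.mem_nhds fun hc => hx (hcl _ x.2 hc)
      filter_upwards [continuous_subtype_val.continuousAt.eventually this] with y hy
      exact ⟨one_pos, le_rfl, fun hyS => absurd (subset_closure hyS) hy⟩)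
  refine ⟨fun x => if hx : x ∈ U then g ⟨x, hx⟩ else 0, ⟨?_, fun x hx => ?_⟩, fun x hx => ?_⟩
  · rw [continuousOn_iff_continuous_domRestrict]
    refine g.continuous.congr fun x => ?_
    simp only [domRestrict_apply, dif_pos x.2]
  · simp only [dif_pos hx]; exact (hg ⟨x, hx⟩).1
  · simp only [dif_pos hx]; exact (hg ⟨x, hx⟩).2

theorem Bi.exists_thin (hG : PLG) (hT : THIN) {w ε : E3 → ℝ} {κ : E3 × ℝ → E3}
    (h : Bi S P M w κ) (hU : IsOpen U) (hSU : S ⊆ U) (hS : ConicalSet S) (hcl : ClosedIn S U)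
    (hε : Gauge ε S) : ∃ κ', Thin S U P M ε κ' := by
  obtain ⟨r, hr, hr2⟩ := h.gauge_near hU hcl hε
  obtain ⟨γ, hγ, hγ2⟩ := hG hU hr
  obtain ⟨m, Φ, hΦ, hm⟩ := hT (X := S) (γ := γ) ⟨hγ.1.mono hSU, hγ.2.mono hS hSU⟩ fun x hx =>
    ⟨(hγ2 x (hSU hx)).1, (hγ2 x (hSU hx)).2.trans (hr2 x (hSU hx)).1⟩
  have sub : ∀ q ∈ S ×ˢ Icc (-1 : ℝ) 1, Φ.toFun q ∈ DB S w := fun q hq =>
    ⟨(Φ.mapsTo hq).1, ((Φ.mapsTo hq).2.trans (hγ2 _ (hSU (Φ.mapsTo hq).1)).2).trans_lt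
      ((hr2 _ (hSU (Φ.mapsTo hq).1)).2 (Φ.mapsTo hq).1).1⟩
  have mt : MapsTo Φ.toFun (S ×ˢ Icc (-1 : ℝ) 1) (S ×ˢ univ) := fun q hq =>
    ⟨(sub q hq).1, trivial⟩
  have z : (0 : ℝ) ∈ Icc (-1 : ℝ) 1 := ⟨by norm_num, by norm_num⟩
  refine ⟨κ ∘ Φ.toFun, fun q hq => (h.cont _ (sub q hq)).comp (Φ.cont q hq) mt,
    fun q hq => (h.con _ (sub q hq)).comp (Φ.conical q hq) mt (Φ.cont q hq),
    h.inj.comp Φ.injOn sub, fun x hx => ?_, fun q hq h0 => h.pos _ (sub q hq) ?_,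
    fun q hq h0 => h.neg _ (sub q hq) ?_, fun q hq => ?_, fun q hq => ?_⟩
  · rw [Function.comp, hΦ, (hm x hx).2.1, h.zero x hx]
  · rw [hΦ, ← (hm _ hq.1).2.1]
    exact (hm _ hq.1).1 z hq.2 h0
  · rw [hΦ, ← (hm _ hq.1).2.1]
    exact (hm _ hq.1).1 hq.2 z h0
  · have hq' : q ∈ S ×ˢ Icc (-1 : ℝ) 1 := ⟨hq.1, Ioo_subset_Icc_self hq.2⟩
    refine (h.opn _ (sub q hq')).trans ?_
    rw [← map_map]
    refine map_mono ?_
    have l : |(Φ.toFun q).2| < γ (Φ.toFun q).1 := by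
      rw [hΦ, abs_lt]
      obtain ⟨a, -, b, c⟩ := hm _ hq.1
      exact ⟨c ▸ a ⟨le_rfl, by norm_num⟩ hq'.2 hq.2.1, b ▸ a hq'.2 ⟨by norm_num, le_rfl⟩ hq.2.2⟩
    have a : 𝓝[DB S w] (Φ.toFun q) ≤ 𝓝[{q : E3 × ℝ | q.1 ∈ S ∧ |q.2| ≤ γ q.1}] (Φ.toFun q) := by
      refine nhdsWithin_le_of_mem ?_
      filter_upwards [ev_lt (hγ.1.mono hSU) (X := DB S w) (fun y hy => hy.1) (sub q hq').1 l,
        self_mem_nhdsWithin] with y a b
      exact ⟨b.1, a.le⟩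
    refine a.trans (le_map_of_right_inverse (mba := Φ.invFun) ?_ ?_)
    · filter_upwards [self_mem_nhdsWithin] with y hy
      exact Φ.right_inv hy
    · have := (Φ.cont_inv _ (Φ.mapsTo hq')).tendsto_nhdsWithin Φ.mapsTo_inv
      rwa [Φ.left_inv hq'] at this
  · have a := (Φ.mapsTo hq).2
    rw [hΦ] at a
    rw [Function.comp, hΦ]
    exact ((hr2 _ (hSU hq.1)).2 hq.1).2 _ (a.trans (hγ2 _ (hSU hq.1)).2)

end P073.Col
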